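import Vale.Agent.P194.Main

namespace Vale.Agent.Results.P194.NotDirectlyFinite

universe u

/-- For every prime `p` there is a finitely presented group `G` such that for every field `K` of
characteristic `p` the group algebra `K[G]` contains `a, b` with `a * b = 1` and `b * a ≠ 1`. -/
theorem result : ∀ p : ℕ, p.Prime →
    ∃ (G : Type) (_ : Group G), Group.IsFinitelyPresented G ∧
      ∀ (K : Type u) [Field K] [CharP K p],
        ∃ a b : MonoidAlgebra K G, a * b = 1 ∧ b * a ≠ 1 := by
  intro p hp
  have : Fact p.Prime := ⟨hp⟩
  exact Vale.Agent.Tri.main p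

end Vale.Agent.Results.P194.NotDirectlyFinite
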